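import Vale.Agent.P011.H271.KSF
import Mathlib.Algebra.Module.Lattice
import Mathlib.RingTheory.Valuation.ValuationSubring
import Mathlib.RingTheory.DiscreteValuationRing.Basic

/-!
# ABHN over global function fields: letters (helper519, proof of helper167)

Row lattices: for a place `v` a lattice is a `cO v`-lattice in `Fin n → v.comp`; a family of
lattices is standard almost everywhere; an invertible matrix acts on the right.
-/

namespace Vale.Agent.P011.Hey

open Module Vale.Agent.P011.H738 Vale.Agent.P011.H271

set_option linter.unusedSectionVars false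

noncomputable section

/-! ### local letters: `A` a discrete valuation ring with finite residue field, `F` its field -/

section Loc

variable (A : Type*) [CommRing A] [IsDomain A] {F : Type*} [Field F] [Algebra A F]

/-- the standard lattice -/
def std (F : Type*) [Field F] [Algebra A F] (n : ℕ) : Submodule A (Fin n → F) :=
  Submodule.pi Set.univ fun _ => LinearMap.range (Algebra.linearMap A F)

variable {A}

theorem mem_std {n : ℕ} {x : Fin n → F} : x ∈ std A F n ↔ ∀ i, ∃ a : A, algebraMap A F a = x i := by
  simp only [std, Submodule.mem_pi, Set.mem_univ, forall_true_left]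
  rfl

/-- the index `[N' : N]` (of additive groups) -/
def rix {n : ℕ} (N N' : Submodule A (Fin n → F)) : ℕ := N.toAddSubgroup.relIndex N'.toAddSubgroup

/-- `log_q` of the index of `N` over the standard lattice -/
def ind {n : ℕ} (N : Submodule A (Fin n → F)) (q : ℕ) : ℤ :=
  (Nat.log q (rix (N ⊓ std A F n) N) : ℤ) - Nat.log q (rix (N ⊓ std A F n) (std A F n))

/-- right multiplication by a matrix -/
def mulR {n : ℕ} (N : Submodule A (Fin n → F)) (g : Matrix (Fin n) (Fin n) F) :
    Submodule A (Fin n → F) := N.map ((Matrix.toLinearMapRight' (R := F) g).restrictScalars A)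

end Loc

/-! ### the ring of integers of a completion -/

section Comp

variable {k : Type} [Field k]

/-- the closed unit ball of a completion, a valuation subring -/
def cO (v : Place k) : ValuationSubring v.comp where
  carrier := {x | ‖x‖ ≤ 1}
  mul_mem' {a b} ha hb := by
    change ‖a * b‖ ≤ 1
    rw [norm_mul]; exact mul_le_one₀ ha (norm_nonneg _) hb
  one_mem' := by change ‖(1 : v.comp)‖ ≤ 1; rw [norm_one]
  add_mem' {a b} ha hb := (IsUltrametricDist.norm_add_le_max a b).trans (max_le ha hb)
  zero_mem' := by change ‖(0 : v.comp)‖ ≤ 1; rw [norm_zero]; exact zero_le_one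
  neg_mem' {a} ha := by change ‖-a‖ ≤ 1; rw [norm_neg]; exact ha
  mem_or_inv_mem' x := by
    by_cases h : ‖x‖ ≤ 1
    · exact Or.inl h
    · right
      change ‖x⁻¹‖ ≤ 1
      rw [norm_inv]
      exact inv_le_one_of_one_le₀ (not_le.1 h).le

theorem mem_cO {v : Place k} {x : v.comp} : x ∈ cO v ↔ ‖x‖ ≤ 1 := Iff.rfl

theorem alg_mem_cO {v : Place k} {x : k} : algebraMap k v.comp x ∈ cO v ↔ v.abv x ≤ 1 := by
  rw [mem_cO, norm_alg]

theorem mem_stdv {v : Place k} {n : ℕ} {x : Fin n → v.comp} :
    x ∈ std (cO v) v.comp n ↔ ∀ i, ‖x i‖ ≤ 1 := by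
  rw [mem_std]
  refine forall_congr' fun i => ?_
  constructor
  · rintro ⟨a, ha⟩
    rw [← ha]; exact a.2
  · intro h
    exact ⟨⟨x i, h⟩, rfl⟩

end Comp

/-! ### global letters -/

section Glob

variable (k : Type) [Field k] (n : ℕ)

/-- families of lattices, standard almost everywhere -/
structure Fam where
  N : ∀ v : Place k, Submodule (cO v) (Fin n → v.comp)
  lat : ∀ v, Submodule.IsLattice v.comp (N v)
  fin : {v | N v ≠ std (cO v) v.comp n}.Finite

variable {k n}

theorem Fam.ext' {M N : Fam k n} (h : ∀ v, M.N v = N.N v) : M = N := by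
  cases M; cases N; congr; exact funext h

instance : LE (Fam k n) := ⟨fun M N => ∀ v, M.N v ≤ N.N v⟩

/-- the degree of a place: `qq v = p ^ dg v`, `p` the characteristic -/
def dg (v : Place k) : ℕ := Nat.log (ringChar k) (qq v)

/-- the degree of a family -/
def Fam.deg (N : Fam k n) : ℤ := ∑ᶠ v, (dg v : ℤ) * ind (N.N v) (qq v)

/-- effective: contains the standard family -/
def Fam.Eff (N : Fam k n) : Prop := ∀ v, std (cO v) v.comp n ≤ N.N v

variable (k n) in
/-- the number of effective families of degree `d` -/
def cnt (d : ℕ) : ℕ := Nat.card {N : Fam k n // N.Eff ∧ N.deg = d}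

/-- a ring over `k` of finite dimension with a splitting at every place, integral at almost all
places (`helper983`: every family of splittings has a conjugate family of this form) -/
structure Spl (k : Type) [Field k] (D : Type) [Ring D] [Algebra k D] (n : ℕ) where
  g : ∀ v : Place k, D →+* Matrix (Fin n) (Fin n) v.comp
  g_alg : ∀ v (c : k), g v (algebraMap k D c) = Matrix.scalar (Fin n) (algebraMap k v.comp c)
  e : Basis (Fin n × Fin n) k D
  span_top : ∀ v : Place k, Submodule.span v.comp (Set.range fun i => g v (e i)) = ⊤
  fin : {v : Place k | ¬ ∀ X : Matrix (Fin n) (Fin n) v.comp,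
    (∀ i j, X i j ∈ cO v) ↔ X ∈ Submodule.span (cO v) (Set.range fun i => g v (e i))}.Finite

variable {D : Type} [Ring D] [Algebra k D]

/-- global sections: the elements all of whose rows lie in the lattices -/
def H0 (s : Spl k D n) (N : Fam k n) : AddSubgroup D where
  carrier := {x | ∀ v i, s.g v x i ∈ N.N v}
  zero_mem' v i := by
    rw [map_zero]
    exact (N.N v).zero_mem
  add_mem' {a b} ha hb v i := by
    rw [map_add]
    exact (N.N v).add_mem (ha v i) (hb v i)
  neg_mem' {a} ha v i := by
    rw [map_neg]
    exact (N.N v).neg_mem (ha v i)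

/-- repartitions: families of matrices, integral almost everywhere -/
def Rep (X : ∀ v : Place k, Matrix (Fin n) (Fin n) v.comp) : Prop :=
  {v | ¬ ∀ i j, X v i j ∈ cO v}.Finite

/-- good families: every repartition is a section of `D` plus a repartition in the family -/
def Good (s : Spl k D n) (N : Fam k n) : Prop :=
  ∀ X : ∀ v : Place k, Matrix (Fin n) (Fin n) v.comp, Rep X → ∃ x : D, ∀ v i,
    (X v - s.g v x) i ∈ N.N v

end Glob

end

end Vale.Agent.P011.Hey
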