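import Vale.Agent.P011.Hey.Hfin
import Vale.Agent.P011.H983.HeySpl

/-!
# ABHN over global function fields: assembly, with the last inputs as hypotheses (helper519)
-/

namespace Vale.Agent.P011.Hey

open Module Vale.Agent.P011.H738 Vale.Agent.P011.H271 Vale.Agent.P011.H167.Ab

set_option linter.unusedSectionVars false

noncomputable section

theorem gff_infinite (k : Type) [Field k] [GFF k] : Infinite k := by
  obtain ⟨F, iF, iFin, φ, hφ⟩ := GFF.out (k := k)
  have h1 : Function.Injective (fun p : Polynomial F => φ (algebraMap (Polynomial F) (RatFunc F) p)) :=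
    φ.injective.comp (IsFractionRing.injective (Polynomial F) (RatFunc F))
  exact Infinite.of_injective _ h1

/-- there are places -/
theorem nonempty_place (k : Type) [Field k] [GFF k] : Nonempty (Place k) := by
  by_contra hcon
  rw [not_nonempty_iff] at hcon
  have h1 : {x : k | ∀ v : Place k, v.abv x ≤ (fun _ : Place k => (1 : ℝ)) v}.Finite :=
    place_finite_le _ (Set.toFinite _)
  have h2 : {x : k | ∀ v : Place k, v.abv x ≤ (fun _ : Place k => (1 : ℝ)) v} = Set.univ :=
    Set.eq_univ_of_forall fun x v => (hcon.false v).elim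
  rw [h2] at h1
  haveI := gff_infinite k
  exact Set.infinite_univ h1

theorem abhn_of (k : Type) [Field k] [GFF k] (D : Type) [DivisionRing D] [Algebra k D]
    [Algebra.IsCentral k D] (n : ℕ) (hn : 2 ≤ n) (hfin : finrank k D = n ^ 2)
    (g : ∀ v : Place k, D →+* Matrix (Fin n) (Fin n) v.comp)
    (hg : ∀ v (c : k), g v (algebraMap k D c) =
      Matrix.scalar (Fin n) (algebraMap k v.comp c))
    (hloc : ∀ n, LocFacts k n)
    (hgood : ∀ (D : Type) [DivisionRing D] [Algebra k D] (n : ℕ) (s : Spl k D n) (hn : 0 < n)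
      (h : LocFacts k n) (v0 : Place k), ∃ m : ℕ,
      ((LSys.fstd (s.sys hn h)).tw v0 (((s.sys hn h).pi v0)⁻¹ ^ m)).Good)
    (hcnt : ∀ (D : Type) [DivisionRing D] [Algebra k D] (n : ℕ) (s : Spl k D n) (hn : 0 < n)
      (h : LocFacts k n) (h1 : LocFacts k 1),
      (∀ d : ℕ, Finite {N : LSys.Fam ((splk k).sys one_pos h1) //
        LSys.fstd ((splk k).sys one_pos h1) ≤ N ∧ N.deg = d}) ∧
      PowerSeries.mk (fun d => ((s.sys hn h).cnt d : ℝ)) = ∏ i ∈ Finset.range n,
        PowerSeries.rescale ((ringChar k : ℝ) ^ i)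
          (PowerSeries.mk fun d => (((splk k).sys one_pos h1).cnt d : ℝ))) : False := by
  have hn0 : n ≠ 0 := by omega
  have hpos : 0 < n := by omega
  obtain ⟨s, -⟩ := Vale.Agent.P011.H983.Hey.exists_spl hn0 hfin g hg
  obtain ⟨v0⟩ := nonempty_place k
  obtain ⟨h1, h2⟩ := hcnt D n s hpos (hloc n) (hloc 1)
  exact LSys.false_of (S := s.sys hpos (hloc n)) (S1 := (splk k).sys one_pos (hloc 1)) (v0 := v0)
    rfl (sys_hfin s hpos (hloc n)) (hgood D n s hpos (hloc n) v0)
    (sys_hfin (splk k) one_pos (hloc 1)) (hgood k 1 (splk k) one_pos (hloc 1) v0) h1 h2 hn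

end

end Vale.Agent.P011.Hey
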