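import Vale.Agent.P011.Hey.Fin0
import Vale.Agent.P011.H167.AbEnd
import Vale.Agent.P011.H279.HeyFacts
import Vale.Agent.P011.H308.HeyGood
import Vale.Agent.P011.H228.CycE

/-!
# The theorem of Albert, Brauer, Hasse and Noether over global function fields

and the Hasse norm theorem for separable extensions of prime degree (assembly by helper519 of the
modules of helper167, helper279, helper308, helper983, helper228, helper63, helper271).
-/

namespace Vale.Agent.P011.Hey

open Module Vale.Agent.P011.H738 Vale.Agent.P011.H271 Vale.Agent.P011.H167.Ab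

set_option linter.unusedSectionVars false

noncomputable section

section

variable {k : Type} [Field k] [GFF k] {n : ℕ} {D : Type} [DivisionRing D] [Algebra k D]

theorem sys_lf (s : Spl k D n) (hn : 0 < n) (h : LocFacts k n) (v : Place k) (m : ℕ) :
    Finite {N : Lv n v // (s.sys hn h).std v ≤ N ∧ (s.sys hn h).ind v N = (m : ℕ)} :=
  (H279.lc_finite (A := cO v) (F := v.comp) (n := n) (H279.card_res v) m).to_subtype

theorem sys_loc (s : Spl k D n) (hn : 0 < n) (h : LocFacts k n) (v : Place k) :
    PowerSeries.mk (fun m => ((s.sys hn h).lc v m : ℝ)) * ∏ i ∈ Finset.range n,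
      (1 - PowerSeries.C ((((ringChar k : ℝ) ^ (s.sys hn h).e v)) ^ i) * PowerSeries.X) = 1 := by
  have h1 := H279.lc_gen (A := cO v) (F := v.comp) (H279.card_res v) ℝ n
  have h2 : (qq v : ℝ) = (ringChar k : ℝ) ^ dg v := by
    rw [h.qq_eq v]; push_cast; rfl
  rw [h2] at h1
  exact h1

end

/-- **the theorem of Albert, Brauer, Hasse and Noether over global function fields**: a central
division algebra of degree at least two is not split at every place. -/
theorem abhn (k : Type) [Field k] [GFF k] (D : Type) [DivisionRing D] [Algebra k D]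
    [Algebra.IsCentral k D] (n : ℕ) (hn : 2 ≤ n) (hfin : finrank k D = n ^ 2)
    (g : ∀ v : Place k, D →+* Matrix (Fin n) (Fin n) v.comp)
    (hg : ∀ v (c : k), g v (algebraMap k D c) =
      Matrix.scalar (Fin n) (algebraMap k v.comp c)) : False := by
  have hn0 : n ≠ 0 := by omega
  have hpos : 0 < n := by omega
  obtain ⟨s, -⟩ := H983.Hey.exists_spl hn0 hfin g hg
  obtain ⟨v0⟩ := nonempty_place k
  have hl := H279.locFacts k n
  have hl1 := H279.locFacts k 1
  exact LSys.false_of_loc (S := s.sys hpos hl) (S1 := (splk k).sys one_pos hl1) v0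
    (fun _ => rfl) (fun B => H279.hpl k B)
    (sys_hfin s hpos hl) (H308.sys_hgood s hpos hl v0)
    (sys_lf s hpos hl) (sys_loc s hpos hl)
    (sys_hfin (splk k) one_pos hl1) (H308.sys_hgood (splk k) one_pos hl1 v0)
    (sys_lf (splk k) one_pos hl1) (sys_loc (splk k) one_pos hl1) hn

theorem abhn' {n : ℕ} (hn : 2 ≤ n) : H228.Abhn n := fun k _ _ D _ _ _ hfin g hg =>
  abhn k D n hn hfin g hg

/-- **the Hasse norm theorem over global function fields**, separable extensions of prime
degree -/
theorem hasse_norm {p : ℕ} (hp : p.Prime) {k E : Type} [Field k] [GFF k]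
    [Field E] [Algebra k E] [Algebra.IsSeparable k E] (hE : finrank k E = p) (c : k)
    (h : ∀ v : Place k, H63.LocN E c v) : ∃ e : E, Algebra.norm k e = c :=
  H228.norm_of_abhn hp (abhn' hp.two_le) hE c h

end

end Vale.Agent.P011.Hey
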