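import Vale.Agent.P011.Hey.Spec

/-!
# ABHN over global function fields: operations on families of lattices (helper519)
-/

namespace Vale.Agent.P011.Hey

open Module Vale.Agent.P011.H738 Vale.Agent.P011.H271

set_option linter.unusedSectionVars false

noncomputable section

section Loc

variable {A : Type*} [CommRing A] [IsDomain A] {F : Type*} [Field F] [Algebra A F] {n : ℕ}

theorem mem_mulR {N : Submodule A (Fin n → F)} {g : Matrix (Fin n) (Fin n) F} {x : Fin n → F} :
    x ∈ mulR N g ↔ ∃ y ∈ N, Matrix.vecMul y g = x := by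
  simp only [mulR, Submodule.mem_map]
  rfl

theorem vecMul_mem_mulR {N : Submodule A (Fin n → F)} {g : Matrix (Fin n) (Fin n) F}
    {x : Fin n → F} (hx : x ∈ N) : Matrix.vecMul x g ∈ mulR N g := mem_mulR.2 ⟨x, hx, rfl⟩

theorem mulR_mul (N : Submodule A (Fin n → F)) (g h : Matrix (Fin n) (Fin n) F) :
    mulR (mulR N g) h = mulR N (g * h) := by
  ext x
  simp only [mem_mulR]
  constructor
  · rintro ⟨y, ⟨z, hz, rfl⟩, rfl⟩
    exact ⟨z, hz, by rw [Matrix.vecMul_vecMul]⟩
  · rintro ⟨z, hz, rfl⟩
    exact ⟨_, ⟨z, hz, rfl⟩, by rw [Matrix.vecMul_vecMul]⟩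

theorem mulR_one (N : Submodule A (Fin n → F)) : mulR N 1 = N := by
  ext x
  simp [mem_mulR]

theorem mulR_mono {N N' : Submodule A (Fin n → F)} (h : N ≤ N') (g : Matrix (Fin n) (Fin n) F) :
    mulR N g ≤ mulR N' g := Submodule.map_mono h

theorem mulR_le_iff {N N' : Submodule A (Fin n → F)} {g : Matrix (Fin n) (Fin n) F}
    (hg : IsUnit g) : mulR N g ≤ mulR N' g ↔ N ≤ N' := by
  refine ⟨fun h => ?_, fun h => mulR_mono h g⟩
  obtain ⟨u, rfl⟩ := hg
  have h1 := mulR_mono h (↑u⁻¹ : Matrix (Fin n) (Fin n) F)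
  rwa [mulR_mul, mulR_mul, Units.mul_inv, mulR_one, mulR_one] at h1

theorem mulR_inj {N N' : Submodule A (Fin n → F)} {g : Matrix (Fin n) (Fin n) F}
    (hg : IsUnit g) : mulR N g = mulR N' g ↔ N = N' := by
  rw [le_antisymm_iff, mulR_le_iff hg, mulR_le_iff hg, ← le_antisymm_iff]

theorem mem_mulR_iff {N : Submodule A (Fin n → F)} (u : (Matrix (Fin n) (Fin n) F)ˣ)
    {x : Fin n → F} : x ∈ mulR N u ↔ Matrix.vecMul x ↑u⁻¹ ∈ N := by
  rw [mem_mulR]
  constructor
  · rintro ⟨y, hy, rfl⟩
    rwa [Matrix.vecMul_vecMul, Units.mul_inv, Matrix.vecMul_one]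
  · intro h
    exact ⟨_, h, by rw [Matrix.vecMul_vecMul, Units.inv_mul, Matrix.vecMul_one]⟩

/-- the index is invariant -/
theorem rix_mulR (N N' : Submodule A (Fin n → F)) {g : Matrix (Fin n) (Fin n) F}
    (hg : IsUnit g) : rix (mulR N g) (mulR N' g) = rix N N' := by
  obtain ⟨u, rfl⟩ := hg
  have h1 : ∀ M : Submodule A (Fin n → F), (mulR M (u : Matrix (Fin n) (Fin n) F)).toAddSubgroup =
      M.toAddSubgroup.map (Matrix.toLinearMapRight' (R := F)
        (u : Matrix (Fin n) (Fin n) F)).toAddMonoidHom := by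
    intro M
    ext x
    rw [Submodule.mem_toAddSubgroup, mem_mulR]
    rfl
  rw [rix, rix, h1, h1]
  refine AddSubgroup.relIndex_map_map_of_injective _ _ ?_
  intro x y hxy
  have h2 : Matrix.vecMul x (u : Matrix (Fin n) (Fin n) F) = Matrix.vecMul y u := hxy
  have h3 := congrArg (fun z => Matrix.vecMul z (↑u⁻¹ : Matrix (Fin n) (Fin n) F)) h2
  simpa only [Matrix.vecMul_vecMul, Units.mul_inv, Matrix.vecMul_one] using h3

theorem isLattice_mulR {N : Submodule A (Fin n → F)} (hN : Submodule.IsLattice F N)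
    {g : Matrix (Fin n) (Fin n) F} (hg : IsUnit g) : Submodule.IsLattice F (mulR N g) := by
  refine ⟨hN.fg.map _, ?_⟩
  obtain ⟨u, rfl⟩ := hg
  have h1 : ((mulR N (u : Matrix (Fin n) (Fin n) F) : Submodule A (Fin n → F)) :
      Set (Fin n → F)) = (Matrix.toLinearMapRight' (R := F)
        (u : Matrix (Fin n) (Fin n) F)) '' (N : Set (Fin n → F)) := by
    ext x
    rw [SetLike.mem_coe, mem_mulR]
    rfl
  rw [h1, ← Submodule.map_span, hN.span_eq_top, Submodule.map_top, LinearMap.range_eq_top]
  intro x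
  refine ⟨Matrix.vecMul x (↑u⁻¹ : Matrix (Fin n) (Fin n) F), ?_⟩
  change Matrix.vecMul (Matrix.vecMul x (↑u⁻¹ : Matrix (Fin n) (Fin n) F)) _ = x
  rw [Matrix.vecMul_vecMul, Units.inv_mul, Matrix.vecMul_one]

theorem isLattice_std [IsFractionRing A F] : Submodule.IsLattice F (std A F n) := by
  have h : std A F n = Submodule.span A (Set.range (Pi.single · (1 : F) : Fin n → Fin n → F)) := by
    refine le_antisymm (fun x hx => ?_) (Submodule.span_le.2 ?_)
    · rw [mem_std] at hx
      choose a ha using hx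
      have : x = ∑ i, a i • (Pi.single i (1 : F) : Fin n → F) := by
        ext j
        rw [Finset.sum_apply, Finset.sum_eq_single j]
        · rw [Pi.smul_apply, Pi.single_eq_same, Algebra.smul_def, ha, mul_one]
        · intro i _ hij
          rw [Pi.smul_apply, Pi.single_eq_of_ne (Ne.symm hij), smul_zero]
        · intro h
          exact absurd (Finset.mem_univ j) h
      rw [this]
      exact Submodule.sum_mem _ fun i _ => Submodule.smul_mem _ _
        (Submodule.subset_span ⟨i, rfl⟩)
    · rintro _ ⟨i, rfl⟩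
      rw [SetLike.mem_coe, mem_std]
      intro j
      by_cases hij : j = i
      · subst hij; exact ⟨1, by simp⟩
      · exact ⟨0, by simp [hij]⟩
  rw [h]
  refine ⟨Submodule.fg_span (Set.finite_range _), ?_⟩
  rw [Submodule.span_span_of_tower]
  have := (Pi.basisFun F (Fin n)).span_eq
  rw [← this]
  congr 1
  ext x
  constructor
  · rintro ⟨i, rfl⟩; exact ⟨i, by simp⟩
  · rintro ⟨i, rfl⟩; exact ⟨i, by simp⟩

/-- rows in `N`, after multiplication -/
theorem rows_mulR {N : Submodule A (Fin n → F)} (u : (Matrix (Fin n) (Fin n) F)ˣ)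
    (X : Matrix (Fin n) (Fin n) F) :
    (∀ i, (X * (u : Matrix (Fin n) (Fin n) F)) i ∈ mulR N u) ↔ ∀ i, X i ∈ N := by
  refine forall_congr' fun i => ?_
  have h1 : (X * (u : Matrix (Fin n) (Fin n) F)) i = Matrix.vecMul (X i) u := by
    ext j; rfl
  rw [h1, mem_mulR_iff, Matrix.vecMul_vecMul, Units.mul_inv, Matrix.vecMul_one]

/-- the standard lattice times `X` is inside `N` iff the rows of `X` are in `N` -/
theorem mulR_std_le_iff {N : Submodule A (Fin n → F)} (X : Matrix (Fin n) (Fin n) F) :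
    mulR (std A F n) X ≤ N ↔ ∀ i, X i ∈ N := by
  constructor
  · intro h i
    have h1 : (Pi.single i (1 : F) : Fin n → F) ∈ std A F n := by
      rw [mem_std]
      intro j
      by_cases hij : j = i
      · subst hij; exact ⟨1, by simp⟩
      · exact ⟨0, by simp [hij]⟩
    have h2 := h (vecMul_mem_mulR (g := X) h1)
    have h3 : Matrix.vecMul (Pi.single i (1 : F) : Fin n → F) X = X i := by
      rw [Matrix.single_one_vecMul]; rfl
    rwa [h3] at h2
  · intro h x hx
    obtain ⟨y, hy, rfl⟩ := mem_mulR.1 hx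
    rw [mem_std] at hy
    choose a ha using hy
    have h1 : Matrix.vecMul y X = ∑ i, a i • X i := by
      ext j
      have h2 : (∑ i, a i • X i) j = ∑ i, (a i • X i) j :=
        Finset.sum_apply j Finset.univ fun i => a i • X i
      rw [h2]
      change ∑ i, y i * X i j = _
      refine Finset.sum_congr rfl fun i _ => ?_
      change y i * X i j = (a i • X i) j
      rw [Pi.smul_apply, Algebra.smul_def, ha]
    rw [h1]
    exact N.sum_mem fun i _ => N.smul_mem (a i) (h i)

end Loc

section Glob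

variable {k : Type} [Field k] {n : ℕ}

theorem isLattice_stdv (v : Place k) : Submodule.IsLattice v.comp (std (cO v) v.comp n) :=
  isLattice_std

variable (k n) in
/-- the standard family -/
def Fam.one : Fam k n where
  N v := std (cO v) v.comp n
  lat v := isLattice_stdv v
  fin := by simp

open Classical in
/-- change one component -/
def Fam.upd (N : Fam k n) (v : Place k) (L : Submodule (cO v) (Fin n → v.comp))
    (hL : Submodule.IsLattice v.comp L) : Fam k n where
  N := Function.update N.N v L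
  lat w := by
    by_cases h : w = v
    · subst h; rw [Function.update_self]; exact hL
    · rw [Function.update_of_ne h]; exact N.lat w
  fin := by
    refine (N.fin.insert v).subset fun w hw => ?_
    by_cases h : w = v
    · exact Or.inl h
    · refine Or.inr ?_
      change Function.update N.N v L w ≠ _ at hw
      rwa [Function.update_of_ne h] at hw

theorem Fam.upd_self (N : Fam k n) (v : Place k) (L : Submodule (cO v) (Fin n → v.comp))
    (hL : Submodule.IsLattice v.comp L) : (N.upd v L hL).N v = L := by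
  classical
  exact Function.update_self v L N.N

theorem Fam.upd_ne (N : Fam k n) {v w : Place k} (h : w ≠ v)
    (L : Submodule (cO v) (Fin n → v.comp)) (hL : Submodule.IsLattice v.comp L) :
    (N.upd v L hL).N w = N.N w := by
  classical
  exact Function.update_of_ne h L N.N

/-- a uniformiser in `k` -/
theorem exists_unif (v : Place k) : ∃ x : k, x ≠ 0 ∧ v.abv x = (qq v : ℝ)⁻¹ := by
  obtain ⟨x, hx⟩ := v.normalized.2.1
  refine ⟨x⁻¹, ?_, ?_⟩
  · intro h
    rw [inv_eq_zero] at h
    subst h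
    rw [map_zero] at hx
    exact (qq_pos v).ne hx
  · rw [map_inv₀, hx]; rfl

/-- a uniformiser in `k` -/
def unif (v : Place k) : k := (exists_unif v).choose

theorem unif_ne (v : Place k) : unif v ≠ 0 := (exists_unif v).choose_spec.1

theorem abv_unif (v : Place k) : v.abv (unif v) = (qq v : ℝ)⁻¹ := (exists_unif v).choose_spec.2

/-- scalar matrices as units -/
def scu (v : Place k) (n : ℕ) (c : k) (hc : c ≠ 0) : (Matrix (Fin n) (Fin n) v.comp)ˣ :=
  Units.map (Matrix.scalar (Fin n)).toMonoidHom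
    (Units.mk0 (algebraMap k v.comp c) ((map_ne_zero _).2 hc))

theorem coe_scu (v : Place k) (n : ℕ) (c : k) (hc : c ≠ 0) :
    (scu v n c hc : Matrix (Fin n) (Fin n) v.comp) =
      Matrix.scalar (Fin n) (algebraMap k v.comp c) := rfl

/-- the twist at `q`: the component at `q` is multiplied by `π ^ (-z)` -/
def Fam.tw (N : Fam k n) (q : Place k) (z : ℤ) : Fam k n :=
  N.upd q (mulR (N.N q) (Matrix.scalar (Fin n) (algebraMap k q.comp (unif q ^ (-z)))))
    (isLattice_mulR (N.lat q) (scu q n _ (zpow_ne_zero _ (unif_ne q))).isUnit)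

theorem Fam.tw_self (N : Fam k n) (q : Place k) (z : ℤ) : (N.tw q z).N q =
    mulR (N.N q) (Matrix.scalar (Fin n) (algebraMap k q.comp (unif q ^ (-z)))) :=
  N.upd_self q _ _

theorem Fam.tw_ne (N : Fam k n) {q v : Place k} (h : v ≠ q) (z : ℤ) : (N.tw q z).N v = N.N v :=
  N.upd_ne h _ _

theorem Fam.tw_zero (N : Fam k n) (q : Place k) : N.tw q 0 = N := by
  refine Fam.ext' fun v => ?_
  by_cases h : v = q
  · subst h
    rw [tw_self]
    simp [mulR_one]
  · rw [tw_ne _ h]

theorem Fam.tw_tw (N : Fam k n) (q : Place k) (z w : ℤ) : (N.tw q z).tw q w = N.tw q (z + w) := by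
  refine Fam.ext' fun v => ?_
  by_cases h : v = q
  · subst h
    rw [tw_self, tw_self, tw_self, mulR_mul, ← map_mul, ← map_mul, ← zpow_add₀ (unif_ne v)]
    congr 4
    ring
  · rw [tw_ne _ h, tw_ne _ h, tw_ne _ h]

/-- twisting by a nonnegative integer enlarges -/
theorem Fam.le_tw (N : Fam k n) (q : Place k) {z : ℤ} (hz : 0 ≤ z) : N ≤ N.tw q z := by
  intro v
  by_cases h : v = q
  · subst h
    rw [tw_self]
    intro x hx
    rw [← coe_scu v n _ (zpow_ne_zero _ (unif_ne v)), mem_mulR_iff]
    have h1 : (((scu v n (unif v ^ (-z)) (zpow_ne_zero _ (unif_ne v)))⁻¹ :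
        (Matrix (Fin n) (Fin n) v.comp)ˣ) : Matrix (Fin n) (Fin n) v.comp) =
        Matrix.scalar (Fin n) (algebraMap k v.comp (unif v ^ z)) := by
      rw [scu, ← map_inv]
      change Matrix.scalar (Fin n) _ = _
      congr 1
      change (algebraMap k v.comp (unif v ^ (-z)))⁻¹ = _
      rw [← map_inv₀, zpow_neg, inv_inv]
    rw [h1]
    have h2 : algebraMap k v.comp (unif v ^ z) ∈ cO v := by
      rw [alg_mem_cO, map_zpow₀, abv_unif]
      lift z to ℕ using hz
      rw [zpow_natCast]
      exact pow_le_one₀ (inv_nonneg.2 (qq_pos v).le) (inv_le_one_of_one_le₀ (one_lt_qq' v).le)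
    have h3 : Matrix.vecMul x (Matrix.scalar (Fin n) (algebraMap k v.comp (unif v ^ z))) =
        (⟨_, h2⟩ : cO v) • x := by
      ext j
      rw [Matrix.scalar_apply, Matrix.vecMul_diagonal, Pi.smul_apply]
      rw [mul_comm]
      rfl
    rw [h3]
    exact (N.N v).smul_mem _ hx
  · rw [tw_ne _ h]

end Glob

section Act

variable {k : Type} [Field k] [GFF k] {n : ℕ} {D : Type} [Ring D] [Algebra k D]

/-- almost every element is integral almost everywhere -/
theorem Spl.int (s : Spl k D n) (x : D) : Rep fun v => s.g v x := by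
  have h1 : (⋃ i, {v : Place k | ¬ v.abv (s.e.repr x i) ≤ 1}).Finite := by
    refine Set.finite_iUnion fun i => ?_
    by_cases h0 : s.e.repr x i = 0
    · refine Set.finite_empty.subset ?_
      intro v hv
      apply hv
      rw [h0, map_zero]; exact zero_le_one
    · refine (place_finite h0).subset ?_
      intro v hv h
      exact hv h.le
  refine (s.fin.union h1).subset fun v hv => ?_
  by_contra hcon
  rw [Set.mem_union, not_or] at hcon
  obtain ⟨h2, h3⟩ := hcon
  rw [Set.mem_ofPred_eq, not_not] at h2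
  simp only [Set.mem_iUnion, Set.mem_ofPred_eq, not_exists, not_not] at h3
  apply hv
  change ∀ i j, s.g v x i j ∈ cO v
  rw [h2]
  have h4 : s.g v x = ∑ i, (⟨algebraMap k v.comp (s.e.repr x i), alg_mem_cO.2 (h3 i)⟩ : cO v) •
      s.g v (s.e i) := by
    conv_lhs => rw [← s.e.sum_repr x]
    rw [map_sum]
    refine Finset.sum_congr rfl fun i _ => ?_
    rw [Algebra.smul_def, map_mul, s.g_alg]
    ext a b
    rw [Matrix.scalar_apply, Matrix.diagonal_mul]
    rfl
  rw [h4]
  exact Submodule.sum_mem _ fun i _ => Submodule.smul_mem _ _ (Submodule.subset_span ⟨i, rfl⟩)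

/-- local units of a global unit -/
def Spl.u (s : Spl k D n) (v : Place k) (y : Dˣ) : (Matrix (Fin n) (Fin n) v.comp)ˣ :=
  Units.map (s.g v).toMonoidHom y

theorem Spl.coe_u (s : Spl k D n) (v : Place k) (y : Dˣ) :
    (s.u v y : Matrix (Fin n) (Fin n) v.comp) = s.g v y := rfl

theorem Spl.coe_u_inv (s : Spl k D n) (v : Place k) (y : Dˣ) :
    (((s.u v y)⁻¹ : (Matrix (Fin n) (Fin n) v.comp)ˣ) : Matrix (Fin n) (Fin n) v.comp) =
      s.g v (↑y⁻¹ : D) := rfl

/-- right multiplication by an integral matrix with integral inverse fixes the standard lattice -/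
theorem mulR_std_eq {v : Place k} (u : (Matrix (Fin n) (Fin n) v.comp)ˣ)
    (h1 : ∀ i j, (u : Matrix (Fin n) (Fin n) v.comp) i j ∈ cO v)
    (h2 : ∀ i j, (↑u⁻¹ : Matrix (Fin n) (Fin n) v.comp) i j ∈ cO v) :
    mulR (std (cO v) v.comp n) u = std (cO v) v.comp n := by
  have key : ∀ w : (Matrix (Fin n) (Fin n) v.comp)ˣ,
      (∀ i j, (w : Matrix (Fin n) (Fin n) v.comp) i j ∈ cO v) →
      mulR (std (cO v) v.comp n) w ≤ std (cO v) v.comp n := by
    intro w hw
    rw [mulR_std_le_iff]
    intro i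
    rw [mem_stdv]
    exact fun j => hw i j
  refine le_antisymm (key u h1) ?_
  have h3 := mulR_mono (key u⁻¹ h2) (u : Matrix (Fin n) (Fin n) v.comp)
  rwa [mulR_mul, Units.inv_mul, mulR_one] at h3

/-- the right action of the units of `D` -/
def act (s : Spl k D n) (N : Fam k n) (y : Dˣ) : Fam k n where
  N v := mulR (N.N v) (s.g v y)
  lat v := isLattice_mulR (N.lat v) (s.u v y).isUnit
  fin := by
    refine ((N.fin.union (s.int y)).union (s.int (↑y⁻¹ : D))).subset fun v hv => ?_
    by_contra hcon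
    rw [Set.mem_union, Set.mem_union, not_or, not_or] at hcon
    obtain ⟨⟨h1, h2⟩, h3⟩ := hcon
    rw [Set.mem_ofPred_eq, not_not] at h1 h2 h3
    apply hv
    rw [h1]
    exact mulR_std_eq (s.u v y) h2 h3

theorem act_N (s : Spl k D n) (N : Fam k n) (y : Dˣ) (v : Place k) :
    (act s N y).N v = mulR (N.N v) (s.g v y) := rfl

theorem act_act (s : Spl k D n) (N : Fam k n) (y z : Dˣ) :
    act s (act s N y) z = act s N (y * z) := by
  refine Fam.ext' fun v => ?_
  rw [act_N, act_N, act_N, mulR_mul, Units.val_mul, map_mul]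

theorem act_one (s : Spl k D n) (N : Fam k n) : act s N 1 = N := by
  refine Fam.ext' fun v => ?_
  rw [act_N, Units.val_one, map_one, mulR_one]

theorem act_inv_act (s : Spl k D n) (N : Fam k n) (y : Dˣ) : act s (act s N y⁻¹) y = N := by
  rw [act_act, inv_mul_cancel, act_one]

theorem act_act_inv (s : Spl k D n) (N : Fam k n) (y : Dˣ) : act s (act s N y) y⁻¹ = N := by
  rw [act_act, mul_inv_cancel, act_one]

theorem act_mono (s : Spl k D n) {N N' : Fam k n} (h : N ≤ N') (y : Dˣ) :
    act s N y ≤ act s N' y := fun v => mulR_mono (h v) _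

/-- the action commutes with twists -/
theorem act_tw (s : Spl k D n) (N : Fam k n) (y : Dˣ) (q : Place k) (z : ℤ) :
    act s (N.tw q z) y = (act s N y).tw q z := by
  refine Fam.ext' fun v => ?_
  by_cases h : v = q
  · subst h
    rw [act_N, Fam.tw_self, Fam.tw_self, act_N, mulR_mul, mulR_mul]
    congr 1
    exact Matrix.scalar_comm _ (fun _ => Commute.all _ _) _
  · rw [act_N, Fam.tw_ne _ h, Fam.tw_ne _ h, act_N]

theorem mem_H0 {s : Spl k D n} {N : Fam k n} {x : D} : x ∈ H0 s N ↔ ∀ v i, s.g v x i ∈ N.N v :=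
  Iff.rfl

theorem H0_mono (s : Spl k D n) {N N' : Fam k n} (h : N ≤ N') : H0 s N ≤ H0 s N' :=
  fun _ hx v i => h v (hx v i)

/-- right multiplication on sections -/
theorem mul_mem_H0_act (s : Spl k D n) (N : Fam k n) (y : Dˣ) (x : D) :
    x * y ∈ H0 s (act s N y) ↔ x ∈ H0 s N := by
  rw [mem_H0, mem_H0]
  refine forall_congr' fun v => ?_
  rw [map_mul]
  exact rows_mulR (s.u v y) (s.g v x)

/-- sections and effective families -/
theorem unit_mem_H0_iff (s : Spl k D n) (N : Fam k n) (y : Dˣ) :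
    (y : D) ∈ H0 s N ↔ (act s N y⁻¹).Eff := by
  rw [mem_H0]
  refine forall_congr' fun v => ?_
  rw [act_N, ← mulR_std_le_iff, ← mulR_le_iff (s.u v y⁻¹).isUnit, mulR_mul, Spl.coe_u, ← map_mul,
    Units.mul_inv, map_one, mulR_one]

theorem card_H0_act (s : Spl k D n) (N : Fam k n) (y : Dˣ) :
    Nat.card (H0 s (act s N y)) = Nat.card (H0 s N) := by
  refine (Nat.card_congr (Equiv.subtypeEquiv (Units.mulRight y) fun x => ?_)).symm
  exact (mul_mem_H0_act s N y x).symm

end Act

end

end Vale.Agent.P011.Hey
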