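import Vale.Agent.P011.Hey.Sys
import Vale.Agent.P011.H167.AbMain

/-!
# ABHN over global function fields: finiteness of the global sections (helper519)
-/

namespace Vale.Agent.P011.Hey

open Module Vale.Agent.P011.H738 Vale.Agent.P011.H271

set_option linter.unusedSectionVars false

noncomputable section

variable {k : Type} [Field k] {n : ℕ}

section R

variable {D : Type} [Ring D] [Algebra k D]

/-- the local basis -/
def Spl.bas (s : Spl k D n) (v : Place k) :
    Basis (Fin n × Fin n) v.comp (Matrix (Fin n) (Fin n) v.comp) :=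
  basisOfTopLeSpanOfCardEqFinrank (fun i => s.g v (s.e i)) (s.span_top v).ge (by
    rw [Module.finrank_matrix]; simp)

theorem Spl.bas_apply (s : Spl k D n) (v : Place k) (i : Fin n × Fin n) :
    s.bas v i = s.g v (s.e i) := by
  rw [Spl.bas, coe_basisOfTopLeSpanOfCardEqFinrank]

theorem Spl.g_eq_sum (s : Spl k D n) (v : Place k) (x : D) :
    s.g v x = ∑ i, algebraMap k v.comp (s.e.repr x i) • s.g v (s.e i) := by
  conv_lhs => rw [← s.e.sum_repr x]
  rw [map_sum]
  refine Finset.sum_congr rfl fun i _ => ?_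
  rw [Algebra.smul_def, map_mul, s.g_alg]
  ext a b
  rw [Matrix.scalar_apply, Matrix.diagonal_mul]
  rfl

theorem Spl.bas_repr (s : Spl k D n) (v : Place k) (x : D) (i : Fin n × Fin n) :
    (s.bas v).repr (s.g v x) i = algebraMap k v.comp (s.e.repr x i) := by
  have h : s.g v x = ∑ j, algebraMap k v.comp (s.e.repr x j) • s.bas v j := by
    rw [s.g_eq_sum]
    refine Finset.sum_congr rfl fun j _ => ?_
    rw [s.bas_apply]
  rw [h, Basis.repr_sum_self]

/-- integral coordinates at good places -/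
theorem Spl.repr_mem (s : Spl k D n) {v : Place k} (X : Matrix (Fin n) (Fin n) v.comp)
    (h : X ∈ Submodule.span (cO v) (Set.range fun i => s.g v (s.e i))) (i : Fin n × Fin n) :
    (s.bas v).repr X i ∈ cO v := by
  obtain ⟨c, rfl⟩ := (Submodule.mem_span_range_iff_exists_fun _).1 h
  have h1 : ∑ j, c j • s.g v (s.e j) = ∑ j, (c j : v.comp) • s.bas v j := by
    refine Finset.sum_congr rfl fun j _ => ?_
    rw [s.bas_apply]; rfl
  rw [h1, Basis.repr_sum_self]
  exact (c i).2

/-- coordinates are bounded on bounded matrices -/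
theorem Spl.repr_le (s : Spl k D n) (v : Place k) : ∃ C : ℝ, 0 ≤ C ∧
    ∀ (X : Matrix (Fin n) (Fin n) v.comp) (B : ℝ), (∀ i j, ‖X i j‖ ≤ B) →
    ∀ i, ‖(s.bas v).repr X i‖ ≤ C * B := by
  refine ⟨∑ i, ∑ a, ∑ b, ‖(s.bas v).repr (Matrix.single a b 1) i‖, by positivity, ?_⟩
  intro X B hB i
  have h1 : X = ∑ a, ∑ b, X a b • Matrix.single a b (1 : v.comp) := by
    conv_lhs => rw [Matrix.matrix_eq_sum_single X]
    refine Finset.sum_congr rfl fun a _ => Finset.sum_congr rfl fun b _ => ?_
    rw [Matrix.smul_single, smul_eq_mul, mul_one]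
  have h2 : (s.bas v).repr X i = ∑ a, ∑ b, X a b * (s.bas v).repr (Matrix.single a b 1) i := by
    conv_lhs => rw [h1]
    simp only [map_sum, Finsupp.coe_finset_sum, Finset.sum_apply, map_smul, Finsupp.smul_apply,
      smul_eq_mul]
  rw [h2]
  calc ‖∑ a, ∑ b, X a b * (s.bas v).repr (Matrix.single a b 1) i‖
      ≤ ∑ a, ∑ b, ‖X a b * (s.bas v).repr (Matrix.single a b 1) i‖ :=
        (norm_sum_le _ _).trans (Finset.sum_le_sum fun a _ => norm_sum_le _ _)
    _ ≤ ∑ a, ∑ b, ‖(s.bas v).repr (Matrix.single a b 1) i‖ * B := by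
        refine Finset.sum_le_sum fun a _ => Finset.sum_le_sum fun b _ => ?_
        rw [norm_mul, mul_comm]
        exact mul_le_mul_of_nonneg_left (hB a b) (norm_nonneg _)
    _ = (∑ a, ∑ b, ‖(s.bas v).repr (Matrix.single a b 1) i‖) * B := by
        simp only [Finset.sum_mul]
    _ ≤ _ := by
        rcases isEmpty_or_nonempty (Fin n) with hn | ⟨⟨a⟩⟩
        · exact (hn.false i.1).elim
        refine mul_le_mul_of_nonneg_right ?_ ((norm_nonneg _).trans (hB a a))
        exact Finset.single_le_sum (f := fun i => ∑ a, ∑ b,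
          ‖(s.bas v).repr (Matrix.single a b 1) i‖) (fun i _ => by positivity) (Finset.mem_univ i)

end R

/-- lattices are bounded -/
theorem lattice_le {v : Place k} {N : Submodule (cO v) (Fin n → v.comp)}
    (hN : Submodule.IsLattice v.comp N) : ∃ B : ℝ, ∀ x ∈ N, ∀ i, ‖x i‖ ≤ B := by
  obtain ⟨S, hS⟩ := hN.fg
  refine ⟨∑ x ∈ S, ∑ i, ‖x i‖, fun x hx i => ?_⟩
  set B : ℝ := ∑ x ∈ S, ∑ i, ‖x i‖ with hB
  have hB0 : 0 ≤ B := by positivity
  rw [← hS] at hx
  induction hx using Submodule.span_induction with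
  | mem x hx =>
    calc ‖x i‖ ≤ ∑ i, ‖x i‖ := Finset.single_le_sum (f := fun i => ‖x i‖)
          (fun i _ => norm_nonneg _) (Finset.mem_univ i)
      _ ≤ B := Finset.single_le_sum (f := fun x => ∑ i, ‖x i‖)
          (fun x _ => by positivity) hx
  | zero => simpa using hB0
  | add x y _ _ hx hy => exact (IsUltrametricDist.norm_add_le_max _ _).trans (max_le hx hy)
  | smul a x _ hx =>
    change ‖(a : v.comp) * x i‖ ≤ B
    rw [norm_mul]
    calc _ ≤ 1 * B := mul_le_mul a.2 hx (norm_nonneg _) zero_le_one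
      _ = B := one_mul B

variable [GFF k] {D : Type} [DivisionRing D] [Algebra k D]

/-- **finiteness of the global sections** -/
theorem sys_hfin (s : Spl k D n) (hn : 0 < n) (h : LocFacts k n)
    (N : H167.Ab.LSys.Fam (s.sys hn h)) : (N.H0 : Set D).Finite := by
  classical
  -- bounds for the coordinates
  have hb : ∀ v : Place k, ∃ C : ℝ, ∀ x ∈ s.M v (N v).1, ∀ i, v.abv (s.e.repr x i) ≤ C := by
    intro v
    obtain ⟨B, hB⟩ := lattice_le (N v).2
    obtain ⟨C, -, hC⟩ := s.repr_le v
    refine ⟨C * B, fun x hx i => ?_⟩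
    have h1 := hC (s.g v x) B (fun a b => hB _ (hx a) b) i
    rwa [s.bas_repr, norm_alg] at h1
  choose C hC using hb
  let T : Set (Place k) := {v | ¬ ∀ X : Matrix (Fin n) (Fin n) v.comp,
    (∀ i j, X i j ∈ cO v) ↔ X ∈ Submodule.span (cO v) (Set.range fun i => s.g v (s.e i))} ∪
      {v | N v ≠ stdL n v}
  have hT : T.Finite := s.fin.union N.fin
  have hgood : ∀ v, v ∉ T → ∀ x ∈ s.M v (N v).1, ∀ i, v.abv (s.e.repr x i) ≤ 1 := by
    intro v hv x hx i
    rw [Set.mem_union, not_or, Set.mem_ofPred_eq, not_not, Set.mem_ofPred_eq, not_not] at hv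
    obtain ⟨hv1, hv2⟩ := hv
    rw [hv2] at hx
    have h1 : ∀ a b, s.g v x a b ∈ cO v := fun a b => mem_stdv.1 (hx a) b
    rw [hv1] at h1
    have h2 := s.repr_mem _ h1 i
    rwa [s.bas_repr, alg_mem_cO] at h2
  let c : Place k → ℝ := fun v => if v ∈ T then C v else 1
  have hc : {x : k | ∀ v : Place k, v.abv x ≤ c v}.Finite := by
    refine place_finite_le c (hT.subset fun v hv => ?_)
    by_contra hcon
    change 1 < c v at hv
    simp only [c, if_neg hcon] at hv
    exact lt_irrefl _ hv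
  refine Set.Finite.of_finite_image (f := fun x i => s.e.repr x i)
    ((Set.Finite.pi' fun _ : Fin n × Fin n => hc).subset ?_) ?_
  · rintro _ ⟨x, hx, rfl⟩
    have hx' : ∀ v, x ∈ s.M v (N v).1 := H167.Ab.LSys.Fam.mem_H0.1 hx
    intro i v
    by_cases hv : v ∈ T
    · simp only [c, if_pos hv]
      exact hC v x (hx' v) i
    · simp only [c, if_neg hv]
      exact hgood v hv x (hx' v) i
  · intro x _ y _ hxy
    apply s.e.repr.injective
    ext i
    exact congrFun hxy i

end

end Vale.Agent.P011.Hey
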