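import Vale.Agent.P011.Hey.Ops
import Vale.Agent.P011.H167.AbDefs

/-!
# ABHN over global function fields: the lattice system of a split algebra, I (helper519)
-/

namespace Vale.Agent.P011.Hey

open Module Vale.Agent.P011.H738 Vale.Agent.P011.H271

set_option linter.unusedSectionVars false

noncomputable section

variable {k : Type} [Field k] {n : ℕ}

/-- the lattices at a place -/
abbrev Lv (n : ℕ) (v : Place k) : Type :=
  {N : Submodule (cO v) (Fin n → v.comp) // Submodule.IsLattice v.comp N}

instance (v : Place k) : SemilatticeSup (Lv n v) :=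
  Subtype.semilatticeSup fun {N N'} h h' => by
    haveI : Submodule.IsLattice v.comp N := h
    haveI : Submodule.IsLattice v.comp N' := h'
    exact Submodule.IsLattice.sup v.comp N N'

/-- small multiples of a vector are in a lattice -/
theorem exists_small_smul {v : Place k} {N : Submodule (cO v) (Fin n → v.comp)}
    (hN : Submodule.IsLattice v.comp N) (w : Fin n → v.comp) :
    ∃ δ : ℝ, 0 < δ ∧ ∀ c : v.comp, ‖c‖ ≤ δ → c • w ∈ N := by
  have hw : w ∈ Submodule.span v.comp (N : Set (Fin n → v.comp)) := by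
    rw [hN.span_eq_top]; trivial
  induction hw using Submodule.span_induction with
  | mem x hx => exact ⟨1, one_pos, fun c hc => N.smul_mem (⟨c, hc⟩ : cO v) hx⟩
  | zero => exact ⟨1, one_pos, fun c _ => by rw [smul_zero]; exact N.zero_mem⟩
  | add x y _ _ hx hy =>
    obtain ⟨δ, hδ, h1⟩ := hx
    obtain ⟨δ', hδ', h2⟩ := hy
    exact ⟨min δ δ', lt_min hδ hδ', fun c hc => by
      rw [smul_add]
      exact N.add_mem (h1 c (hc.trans (min_le_left _ _))) (h2 c (hc.trans (min_le_right _ _)))⟩
  | smul a x _ hx =>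
    obtain ⟨δ, hδ, h1⟩ := hx
    have hpos : 0 < ‖a‖ + 1 := by positivity
    refine ⟨δ / (‖a‖ + 1), by positivity, fun c hc => ?_⟩
    rw [smul_smul]
    refine h1 _ ?_
    rw [norm_mul]
    calc ‖c‖ * ‖a‖ ≤ δ / (‖a‖ + 1) * (‖a‖ + 1) := by gcongr; linarith
      _ = δ := by field_simp

variable [GFF k] {D : Type} [Ring D] [Algebra k D]

/-- `D` is dense in the matrices -/
theorem Spl.dense (s : Spl k D n) (v : Place k) {N : Submodule (cO v) (Fin n → v.comp)}
    (hN : Submodule.IsLattice v.comp N) (X : Matrix (Fin n) (Fin n) v.comp) :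
    ∃ x : D, ∀ i, (X - s.g v x) i ∈ N := by
  have hX : X ∈ Submodule.span v.comp (Set.range fun i => s.g v (s.e i)) := by
    rw [s.span_top]; trivial
  obtain ⟨c, hc⟩ := (Submodule.mem_span_range_iff_exists_fun _).1 hX
  have h1 : ∀ j : Fin n × Fin n, ∃ a : k, ∀ i, (c j - algebraMap k v.comp a) • s.g v (s.e j) i ∈ N := by
    intro j
    choose δ hδ h using fun i => exists_small_smul hN (s.g v (s.e j) i)
    rcases isEmpty_or_nonempty (Fin n) with hn | hn
    · exact ⟨0, fun i => (hn.false i).elim⟩
    obtain ⟨a, ha⟩ := dense_alg v (c j)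
      (ε := Finset.univ.inf' Finset.univ_nonempty δ) ((Finset.lt_inf'_iff _).2 fun i _ => hδ i)
    exact ⟨a, fun i => h i _ (ha.le.trans (Finset.inf'_le _ (Finset.mem_univ i)))⟩
  choose a ha using h1
  refine ⟨∑ j, a j • s.e j, fun i => ?_⟩
  have h2 : X - s.g v (∑ j, a j • s.e j) =
      ∑ j, (c j - algebraMap k v.comp (a j)) • s.g v (s.e j) := by
    rw [map_sum, ← hc, ← Finset.sum_sub_distrib]
    refine Finset.sum_congr rfl fun j _ => ?_
    rw [sub_smul]
    congr 1
    rw [Algebra.smul_def, map_mul, s.g_alg]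
    ext a' b'
    rw [Matrix.scalar_apply, Matrix.diagonal_mul]
    rfl
  rw [h2]
  have h3 : (∑ j, (c j - algebraMap k v.comp (a j)) • s.g v (s.e j)) i =
      ∑ j, (c j - algebraMap k v.comp (a j)) • s.g v (s.e j) i :=
    Finset.sum_apply i Finset.univ fun j => (c j - algebraMap k v.comp (a j)) • s.g v (s.e j)
  rw [h3]
  exact N.sum_mem fun j _ => ha j i

/-- the elements whose rows are in a lattice -/
def Spl.M (s : Spl k D n) (v : Place k) (N : Submodule (cO v) (Fin n → v.comp)) :
    AddSubgroup D where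
  carrier := {x | ∀ i, s.g v x i ∈ N}
  zero_mem' i := by
    rw [map_zero]
    exact N.zero_mem
  add_mem' {a b} ha hb i := by
    rw [map_add]
    exact N.add_mem (ha i) (hb i)
  neg_mem' {a} ha i := by
    rw [map_neg]
    exact N.neg_mem (ha i)

theorem Spl.mem_M {s : Spl k D n} {v : Place k} {N : Submodule (cO v) (Fin n → v.comp)} {x : D} :
    x ∈ s.M v N ↔ ∀ i, s.g v x i ∈ N := Iff.rfl

theorem Spl.M_index (s : Spl k D n) (v : Place k) {N N' : Submodule (cO v) (Fin n → v.comp)}
    (hN : Submodule.IsLattice v.comp N) (h : N ≤ N') :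
    (s.M v N).relIndex (s.M v N') = rix N N' ^ n := by
  let P : AddSubgroup (Fin n → v.comp) := N.toAddSubgroup
  let P' : AddSubgroup (Fin n → v.comp) := N'.toAddSubgroup
  let φ : s.M v N' →+ (Fin n → P' ⧸ P.addSubgroupOf P') :=
    { toFun := fun x i => QuotientAddGroup.mk (⟨s.g v x.1 i, x.2 i⟩ : P')
      map_zero' := by
        funext i
        refine (QuotientAddGroup.eq_zero_iff _).2 ?_
        rw [AddSubgroup.mem_addSubgroupOf]
        change s.g v 0 i ∈ N
        rw [map_zero]
        exact N.zero_mem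
      map_add' := by
        intro x y
        funext i
        have h1 : (⟨s.g v (x + y).1 i, (x + y).2 i⟩ : P') =
            ⟨s.g v x.1 i, x.2 i⟩ + ⟨s.g v y.1 i, y.2 i⟩ := by
          apply Subtype.ext
          change s.g v (x.1 + y.1) i = s.g v x.1 i + s.g v y.1 i
          rw [map_add]; rfl
        rw [h1]
        rfl }
  have hker : φ.ker = (s.M v N).addSubgroupOf (s.M v N') := by
    ext x
    rw [AddMonoidHom.mem_ker, AddSubgroup.mem_addSubgroupOf, Spl.mem_M, funext_iff]
    refine forall_congr' fun i => ?_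
    change QuotientAddGroup.mk _ = 0 ↔ _
    rw [QuotientAddGroup.eq_zero_iff, AddSubgroup.mem_addSubgroupOf]
    rfl
  have hsurj : Function.Surjective φ := by
    intro y
    choose r hr using fun i => QuotientAddGroup.mk_surjective (y i)
    let R : Matrix (Fin n) (Fin n) v.comp := fun i => (r i : Fin n → v.comp)
    obtain ⟨x, hx⟩ := s.dense v hN R
    have hx' : ∀ i, s.g v x i ∈ N' := by
      intro i
      have h1 : s.g v x i = (r i : Fin n → v.comp) - (R - s.g v x) i := by
        ext j
        change _ = (r i : Fin n → v.comp) j - ((r i : Fin n → v.comp) j - s.g v x i j)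
        rw [sub_sub_cancel]
      rw [h1]
      exact N'.sub_mem (r i).2 (h (hx i))
    refine ⟨⟨x, hx'⟩, ?_⟩
    funext i
    rw [← hr i]
    change QuotientAddGroup.mk _ = QuotientAddGroup.mk _
    rw [QuotientAddGroup.eq, AddSubgroup.mem_addSubgroupOf]
    change -(s.g v x i) + (r i : Fin n → v.comp) ∈ N
    rw [neg_add_eq_sub]
    exact hx i
  rw [AddSubgroup.relIndex, ← hker, AddSubgroup.index_eq_card,
    Nat.card_congr (QuotientAddGroup.quotientKerEquivOfSurjective φ hsurj).toEquiv, Nat.card_fun,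
    Nat.card_fin]
  rfl

theorem Spl.mem_M_iff (s : Spl k D n) (v : Place k) (N : Submodule (cO v) (Fin n → v.comp))
    (x : D) : x ∈ s.M v N ↔ mulR (std (cO v) v.comp n) (s.g v x) ≤ N := by
  rw [mulR_std_le_iff]; rfl

/-- the right action at a place -/
def Spl.actv (s : Spl k D n) (v : Place k) (N : Lv n v) (x : Dˣ) : Lv n v :=
  ⟨mulR N.1 (s.g v x), isLattice_mulR N.2 (s.u v x).isUnit⟩

theorem Spl.actv_one (s : Spl k D n) (v : Place k) (N : Lv n v) : s.actv v N 1 = N := by
  apply Subtype.ext
  change mulR N.1 (s.g v ((1 : Dˣ) : D)) = _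
  rw [Units.val_one, map_one, mulR_one]

theorem Spl.actv_mul (s : Spl k D n) (v : Place k) (N : Lv n v) (x y : Dˣ) :
    s.actv v N (x * y) = s.actv v (s.actv v N x) y := by
  apply Subtype.ext
  change mulR N.1 (s.g v ((x * y : Dˣ) : D)) = mulR (mulR N.1 (s.g v x)) (s.g v y)
  rw [Units.val_mul, map_mul, mulR_mul]

theorem Spl.actv_mono (s : Spl k D n) (v : Place k) (x : Dˣ) (N N' : Lv n v) (h : N ≤ N') :
    s.actv v N x ≤ s.actv v N' x := mulR_mono h _

/-- the standard lattice at a place -/
def stdL (n : ℕ) (v : Place k) : Lv n v := ⟨std (cO v) v.comp n, isLattice_stdv v⟩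

theorem Spl.actv_std (s : Spl k D n) (x : Dˣ) :
    {v : Place k | s.actv v (stdL n v) x ≠ stdL n v}.Finite := by
  refine (act s (Fam.one k n) x).fin.subset fun v hv h => hv ?_
  exact Subtype.ext h

/-- the uniformiser as a unit of `D` -/
def Spl.piv (_s : Spl k D n) (v : Place k) : Dˣ :=
  Units.map (algebraMap k D).toMonoidHom (Units.mk0 (unif v) (unif_ne v))

theorem Spl.coe_piv (s : Spl k D n) (v : Place k) : (s.piv v : D) = algebraMap k D (unif v) := rfl

theorem Spl.piv_comm (s : Spl k D n) (v : Place k) (x : Dˣ) : s.piv v * x = x * s.piv v := by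
  apply Units.ext
  rw [Units.val_mul, Units.val_mul, Spl.coe_piv]
  exact Algebra.commutes _ _

end

end Vale.Agent.P011.Hey
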