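import Vale.Agent.P011.Hey.Inst

/-!
# ABHN over global function fields: the lattice system of a split algebra, II (helper519)

`LocFacts k n`: the local facts on lattices which are needed; `Spl.sys` is the lattice system.
-/

namespace Vale.Agent.P011.Hey

open Module Vale.Agent.P011.H738 Vale.Agent.P011.H271

set_option linter.unusedSectionVars false

noncomputable section

/-- the local facts -/
structure LocFacts (k : Type) [Field k] (n : ℕ) : Prop where
  qq_eq : ∀ v : Place k, qq v = ringChar k ^ dg v
  dg_pos : ∀ v : Place k, 0 < dg v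
  char_gt : 1 < ringChar k
  ind_std : ∀ v : Place k, ind (std (cO v) v.comp n) (qq v) = 0
  ind_mono : ∀ (v : Place k) (N N' : Submodule (cO v) (Fin n → v.comp)),
    Submodule.IsLattice v.comp N → Submodule.IsLattice v.comp N' → N ≤ N' →
    ind N (qq v) ≤ ind N' (qq v)
  rix_eq : ∀ (v : Place k) (N N' : Submodule (cO v) (Fin n → v.comp)),
    Submodule.IsLattice v.comp N → Submodule.IsLattice v.comp N' → N ≤ N' →
    rix N N' = qq v ^ (ind N' (qq v) - ind N (qq v)).toNat
  ind_unif : ∀ (v : Place k) (N : Submodule (cO v) (Fin n → v.comp)),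
    Submodule.IsLattice v.comp N →
    ind (mulR N (Matrix.scalar (Fin n) (algebraMap k v.comp (unif v)))) (qq v) =
      ind N (qq v) - n

variable {k : Type} [Field k] [GFF k] {n : ℕ} {D : Type} [DivisionRing D] [Algebra k D]

/-- the lattice system of a split division algebra -/
def Spl.sys (s : Spl k D n) (hn : 0 < n) (h : LocFacts k n) :
    H167.Ab.LSys D (Place k) (Lv n) n (ringChar k) where
  e := dg
  std := stdL n
  M v N := s.M v N.1
  act := s.actv
  ind v N := ind N.1 (qq v)
  pi := s.piv
  e_pos := h.dg_pos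
  one_lt := h.char_gt
  n_pos := hn
  act_one := s.actv_one
  act_mul := s.actv_mul
  act_mono := s.actv_mono
  mem_iff v N x := s.mem_M_iff v N.1 x
  ind_std := h.ind_std
  ind_mono v N N' hNN' := h.ind_mono v N.1 N'.1 N.2 N'.2 hNN'
  ind_eq v N N' hNN' he := by
    apply Subtype.ext
    refine le_antisymm hNN' ?_
    have h1 := h.rix_eq v N.1 N'.1 N.2 N'.2 hNN'
    have he' : ind N.1 (qq v) = ind N'.1 (qq v) := he
    rw [he', sub_self, Int.toNat_zero, pow_zero, rix, AddSubgroup.relIndex_eq_one] at h1
    exact h1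
  index v N N' hNN' := by
    rw [s.M_index v N.2 hNN', h.rix_eq v N.1 N'.1 N.2 N'.2 hNN', h.qq_eq v, ← pow_mul, ← pow_mul]
    congr 1
    rw [← h.qq_eq v]
    ring
  act_std := s.actv_std
  pi_comm := s.piv_comm
  ind_pi v N := by
    have h1 := h.ind_unif v N.1 N.2
    rw [← s.g_alg] at h1
    exact h1

theorem Spl.sys_e (s : Spl k D n) (hn : 0 < n) (h : LocFacts k n) : (s.sys hn h).e = dg := rfl

theorem Spl.sys_M (s : Spl k D n) (hn : 0 < n) (h : LocFacts k n) (v : Place k) (N : Lv n v) :
    (s.sys hn h).M v N = s.M v N.1 := rfl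

instance uniqueFin11 : Unique (Fin 1 × Fin 1) := ⟨⟨(0, 0)⟩, fun _ => Subsingleton.elim _ _⟩

/-- the system of the field itself -/
def splk (k : Type) [Field k] : Spl k k 1 where
  g v := (Matrix.scalar (Fin 1)).comp (algebraMap k v.comp)
  g_alg v c := rfl
  e := Basis.singleton (Fin 1 × Fin 1) k
  span_top v := by
    rw [eq_top_iff]
    intro X _
    have h1 : X = X 0 0 • (1 : Matrix (Fin 1) (Fin 1) v.comp) := by
      ext i j
      rw [Subsingleton.elim i 0, Subsingleton.elim j 0]
      simp
    rw [h1]
    refine Submodule.smul_mem _ _ (Submodule.subset_span ⟨(0, 0), ?_⟩)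
    simp
  fin := by
    refine Set.finite_empty.subset fun v hv => hv ?_
    intro X
    have h2 : (Set.range fun i => ((Matrix.scalar (Fin 1)).comp (algebraMap k v.comp))
        (Basis.singleton (Fin 1 × Fin 1) k i)) =
        {(1 : Matrix (Fin 1) (Fin 1) v.comp)} := by
      ext Y
      simp only [Set.mem_range, Set.mem_singleton_iff]
      constructor
      · rintro ⟨i, rfl⟩
        simp
      · rintro rfl
        exact ⟨(0, 0), by simp⟩
    rw [h2, Submodule.mem_span_singleton]
    constructor
    · intro h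
      refine ⟨⟨X 0 0, h 0 0⟩, ?_⟩
      ext i j
      rw [Subsingleton.elim i 0, Subsingleton.elim j 0]
      change X 0 0 * (1 : Matrix (Fin 1) (Fin 1) v.comp) 0 0 = _
      simp
    · rintro ⟨a, rfl⟩ i j
      rw [Subsingleton.elim i 0, Subsingleton.elim j 0]
      have h3 : (a • (1 : Matrix (Fin 1) (Fin 1) v.comp)) 0 0 = (a : v.comp) := by
        change (a : v.comp) * (1 : Matrix (Fin 1) (Fin 1) v.comp) 0 0 = _
        simp
      rw [h3]
      exact a.2

end

end Vale.Agent.P011.Hey
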